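import Mathlib
import Vale.Agent.P154.Q.Threshold
import Vale.Agent.P154.Q.Edge
import Vale.Agent.P154.Four.Pair

namespace Vale.Agent.Results.P154.FourStateFerro

open Filter Topology Vale.Agent.P154

/-- The Kesten-Stigum bound is the exact reconstruction threshold of the ferromagnetic four-state
Potts channel on regular trees and on Poisson Galton-Watson trees, for every d. -/
theorem result :
    (∀ d : ℕ, 2 ≤ d → ∀ l ∈ Set.Icc (0 : ℝ) 1,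
      ((d : ℝ) * l ^ 2 ≤ 1 → Tendsto (Q.aReg 4 l d) atTop (𝓝 0)) ∧
      (1 < (d : ℝ) * l ^ 2 → ∃ c > 0, ∀ n, c ≤ Q.aReg 4 l d n)) ∧
    (∀ d : ℝ, 0 < d → ∀ l ∈ Set.Icc (0 : ℝ) 1,
      (d * l ^ 2 ≤ 1 → Tendsto (Q.aGW 4 l d) atTop (𝓝 0)) ∧
      (1 < d * l ^ 2 → ∃ c > 0, ∀ n, c ≤ Q.aGW 4 l d n)) ∧
    (∀ l ∈ Set.Icc (0 : ℝ) 1, ∀ T : ℕ → Tree,
      Tendsto (fun n => (levelSize (T n) n : ℝ) * l ^ (2 * n)) atTop (𝓝 0) →
      Tendsto (fun n => Q.aTree 4 l (T n) n) atTop (𝓝 0)) :=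
  Q.threshold_of_cert (by norm_num) (Q.edgeCert (by norm_num) (by norm_num)) Four.pairCert_four

end Vale.Agent.Results.P154.FourStateFerro
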