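import Mathlib
import Vale.Agent.P154.Neg.Grid.Runs.All

namespace Vale.Agent.Results.P154.PottsThreshold

open Filter Topology Vale.Agent.P154

/-- The Kesten-Stigum bound is the exact reconstruction threshold of the three-state Potts channel
for every admissible λ and of the four-state one for every λ ≥ 0, on regular trees and on Poisson
Galton-Watson trees, for every admissible d. -/
theorem result :
    (∀ d : ℕ, 2 ≤ d → ∀ l ∈ Set.Icc (-1 / 2 : ℝ) 1,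
      (Tendsto (aReg l d) atTop (𝓝 0) ↔ (d : ℝ) * l ^ 2 ≤ 1) ∧
      (1 < (d : ℝ) * l ^ 2 → ∃ c > 0, ∀ n, c ≤ aReg l d n)) ∧
    (∀ d : ℝ, 0 < d → ∀ l ∈ Set.Icc (-1 / 2 : ℝ) 1,
      (Tendsto (aGW l d) atTop (𝓝 0) ↔ d * l ^ 2 ≤ 1) ∧
      (1 < d * l ^ 2 → ∃ c > 0, ∀ n, c ≤ aGW l d n)) ∧
    (∀ d : ℕ, 2 ≤ d → ∀ l ∈ Set.Icc (0 : ℝ) 1,
      (Tendsto (Q.aReg 4 l d) atTop (𝓝 0) ↔ (d : ℝ) * l ^ 2 ≤ 1) ∧
      (1 < (d : ℝ) * l ^ 2 → ∃ c > 0, ∀ n, c ≤ Q.aReg 4 l d n)) ∧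
    (∀ d : ℝ, 0 < d → ∀ l ∈ Set.Icc (0 : ℝ) 1,
      (Tendsto (Q.aGW 4 l d) atTop (𝓝 0) ↔ d * l ^ 2 ≤ 1) ∧
      (1 < d * l ^ 2 → ∃ c > 0, ∀ n, c ≤ Q.aGW 4 l d n)) :=
  Neg.threshold_of_runsBelow Neg.runsBelow

end Vale.Agent.Results.P154.PottsThreshold
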