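import Mathlib
import Vale.Agent.P154.Neg.Band.FiveUp
import Vale.Agent.P154.AnyTree

namespace Vale.Agent.Results.P154.ThreeStateDFive

open Filter Topology Vale.Agent.P154

/-- The Kesten-Stigum bound is the exact reconstruction threshold of the three-state Potts channel
for every admissible λ when d is at least 5, and for every d when λ is at least -17/38, on regular
trees and on Poisson Galton-Watson trees; for λ ≥ 0 also along arbitrary finite trees. -/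
theorem result :
    (∀ d : ℕ, 2 ≤ d → ∀ l ∈ Set.Icc (-1 / 2 : ℝ) 1, (5 ≤ d ∨ -17 / 38 ≤ l) →
      ((d : ℝ) * l ^ 2 ≤ 1 → Tendsto (aReg l d) atTop (𝓝 0)) ∧
      (1 < (d : ℝ) * l ^ 2 → ∃ c > 0, ∀ n, c ≤ aReg l d n)) ∧
    (∀ d : ℝ, 0 < d → ∀ l ∈ Set.Icc (-1 / 2 : ℝ) 1, (5 ≤ d ∨ -17 / 38 ≤ l) →
      (d * l ^ 2 ≤ 1 → Tendsto (aGW l d) atTop (𝓝 0)) ∧
      (1 < d * l ^ 2 → ∃ c > 0, ∀ n, c ≤ aGW l d n)) ∧
    (∀ l ∈ Set.Icc (0 : ℝ) 1, ∀ T : ℕ → Tree,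
      Tendsto (fun n => (levelSize (T n) n : ℝ) * l ^ (2 * n)) atTop (𝓝 0) →
      Tendsto (fun n => aTree l (T n) n) atTop (𝓝 0)) :=
  ⟨fun _ hd _ hl hc => ⟨Neg.Band.reg_nonrec hd hl hc, Neg.reg_reconstruction hl.1 hl.2⟩,
   fun _ hd _ hl hc => ⟨Neg.Band.gw_nonrec hd hl hc, Neg.gw_reconstruction hd hl.1 hl.2⟩,
   fun _ hl T => tree_nonreconstruction hl.1 hl.2 T⟩

end Vale.Agent.Results.P154.ThreeStateDFive
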